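import Vale.Agent.P205.Assemble
import Vale.Agent.P205.Statement
import Vale.Agent.P205.Solve
import Vale.Agent.P205.Curv
import Vale.Agent.P205.Hopf
import Vale.Agent.P205.Beltrami
import Vale.Agent.P205.Uniform

namespace Vale.Agent.Results.P205.TorusIntoR4

open scoped ContDiff
open Vale.Agent.P205

/-- Every smooth metric on the two-torus has a smooth isometric immersion into four-space. -/
theorem result :
    ∀ g : ℝ × ℝ → Matrix (Fin 2) (Fin 2) ℝ,
      (∀ i j, ContDiff ℝ ∞ fun x => g x i j) → (∀ x, (g x).PosDef) →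
      (∀ x, g (x + (1, 0)) = g x ∧ g (x + (0, 1)) = g x) →
      ∃ F : ℝ × ℝ → EuclideanSpace ℝ (Fin 4), ContDiff ℝ ∞ F ∧
        (∀ x, F (x + (1, 0)) = F x ∧ F (x + (0, 1)) = F x) ∧
        ∀ x, ∀ i j : Fin 2, inner ℝ (fderiv ℝ F x (![((1 : ℝ), (0 : ℝ)), (0, 1)] i))
          (fderiv ℝ F x (![((1 : ℝ), (0 : ℝ)), (0, 1)] j)) = g x i j :=
  torus_metric (uniform beltrami) (torus solve curv develop hopf)

end Vale.Agent.Results.P205.TorusIntoR4
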